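import Vale.Agent.P123.Key

namespace Vale.Agent.P123

open Complex Finset MeasureTheory intervalIntegral Polynomial
open scoped InnerProductSpace ComplexConjugate

variable {H : Type*} [NormedAddCommGroup H] [InnerProductSpace ℂ H] [CompleteSpace H]

theorem unit_of {C : H →L[ℂ] H} {u : ℂ} {δ : ℝ} (hu : ‖u‖ = 1) (hδ : 0 < δ)
    (h : ∀ y, δ * ‖y‖ ^ 2 ≤ (conj u * ⟪y, C y⟫_ℂ).re) : IsUnit C :=
  C.isUnit_of_forall_le_norm_inner_map (c := ⟨δ, hδ.le⟩) hδ fun y => by
    rw [mul_comm, norm_inner_symm]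
    exact (h y).trans ((re_le_norm _).trans (by simp [hu]))

theorem deriv_inv {C : ℝ → H →L[ℂ] H} {C' : H →L[ℂ] H} {t : ℝ} (h : HasDerivAt C C' t)
    (hu : IsUnit (C t)) : HasDerivAt (fun t => Ring.inverse (C t))
      (-(Ring.inverse (C t) * C' * Ring.inverse (C t))) t := by
  obtain ⟨u, hu⟩ := hu
  have := (hasFDerivAt_ringInverse (𝕜 := ℝ) u).comp_hasDerivAt_of_eq t h hu
  rw [← hu, Ring.inverse_unit]
  simpa using! this

theorem cont_inv {Y : Type} [TopologicalSpace Y] {C : Y → H →L[ℂ] H} (h : Continuous C) {t : Y}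
    (hu : IsUnit (C t)) : ContinuousAt (fun t => Ring.inverse (C t)) t := by
  obtain ⟨u, hu⟩ := hu
  exact (NormedRing.inverse_continuousAt u).comp_of_eq h.continuousAt hu.symm

theorem comm_inv {C N : H →L[ℂ] H} (hu : IsUnit C) (h : Commute N C) :
    Commute N (Ring.inverse C) := by
  obtain ⟨u, rfl⟩ := hu
  rw [Ring.inverse_unit]; exact h.units_inv_right

theorem tel' {m : ℕ} {v : ℕ → ℂ} (hv : v m = v 0) {E : Type*} [AddCommGroup E] (G : ℂ → E) :
    ∑ j ∈ range m, (G (v (j + 1)) - G (v j)) = 0 := by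
  rw [sum_range_sub (fun j => G (v j)), hv, sub_self]

set_option maxHeartbeats 400000 in
theorem contour (A : H →L[ℂ] H) (x0 : H) (hx0 : ‖x0‖ = 1) {m : ℕ} (hm : 0 < m) (v u : ℕ → ℂ)
    (l : ℕ → ℝ) {δ : ℝ} (hδ : 0 < δ) (hv : v m = v 0) (hu : ∀ j, ‖u j‖ = 1) (hl : ∀ j, 0 < l j)
    (hd : ∀ j, v (j + 1) - v j = l j * I * u j)
    (hs : ∀ j x, ‖x‖ = 1 → δ ≤ (conj (u j) * (v j - ⟪x, A x⟫_ℂ)).re) (P : ℂ[X])
    (hP : ∀ j, ∀ t ∈ Set.Icc (0 : ℝ) 1, ‖P.eval (v j + t * (v (j + 1) - v j))‖ ≤ 1) :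
    ‖aeval A P‖ ≤ 2 := by
  set a0 := ⟪x0, A x0⟫_ℂ with ha0
  set N : H →L[ℂ] H := A - a0 • 1 with hN
  let d : ℕ → ℂ := fun j => v (j + 1) - v j
  let σ : ℕ → ℝ → ℂ := fun j t => v j + t * d j
  let C : ℝ → ℂ → H →L[ℂ] H := fun s z => (z - a0) • 1 - (s : ℂ) • N
  have line : ∀ j t a, (conj (u j) * (σ j t - a)).re = (conj (u j) * (v j - a)).re := by
    intro j t a; simp only [σ, d, hd]; simp; ring
  have ii : ∀ y : H, ⟪y, y⟫_ℂ = ((‖y‖ ^ 2 : ℝ) : ℂ) := fun y => by
    rw [inner_self_eq_norm_sq_to_K]; simp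
  have co1 : ∀ j (y : H), δ * ‖y‖ ^ 2 ≤ (conj (u j) * (v j * (‖y‖ ^ 2 : ℝ) - ⟪y, A y⟫_ℂ)).re := by
    intro j y
    by_cases hy : y = 0
    · simp [hy]
    have y0 : 0 < ‖y‖ := norm_pos_iff.2 hy
    have := hs j (((‖y‖⁻¹ : ℝ) : ℂ) • y) (by simp [norm_smul, y0.ne'])
    rw [map_smul, inner_smul_left, inner_smul_right, conj_ofReal] at this
    rw [show conj (u j) * (v j * (‖y‖ ^ 2 : ℝ) - ⟪y, A y⟫_ℂ) = (‖y‖ ^ 2 : ℝ) * (conj (u j) *
      (v j - (‖y‖⁻¹ : ℝ) * ((‖y‖⁻¹ : ℝ) * ⟪y, A y⟫_ℂ))) by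
        have : (‖y‖ : ℂ) ≠ 0 := by simpa using hy
        push_cast; field_simp, re_ofReal_mul, mul_comm]
    gcongr
  have co : ∀ j t, ∀ s ∈ Set.Icc (0 : ℝ) 1, ∀ y : H,
      δ * ‖y‖ ^ 2 ≤ (conj (u j) * ⟪y, C s (σ j t) y⟫_ℂ).re := by
    intro j t s h y
    have e : conj (u j) * ⟪y, C s (σ j t) y⟫_ℂ = (‖y‖ ^ 2 : ℝ) * (conj (u j) * (σ j t - v j)) +
        s * (conj (u j) * (v j * (‖y‖ ^ 2 : ℝ) - ⟪y, A y⟫_ℂ)) +
        ((1 - s) * ‖y‖ ^ 2 : ℝ) * (conj (u j) * (v j - a0)) := by
      simp only [C, hN, ContinuousLinearMap.sub_apply, ContinuousLinearMap.smul_apply,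
        ContinuousLinearMap.one_apply, inner_sub_right, inner_smul_right, ii]
      push_cast; ring
    rw [e, add_re, add_re, re_ofReal_mul, re_ofReal_mul, re_ofReal_mul, line, sub_self]
    have a1 := mul_le_mul_of_nonneg_left (co1 j y) h.1
    have a2 := mul_le_mul_of_nonneg_left (hs j x0 hx0) (mul_nonneg (sub_nonneg.2 h.2) (sq_nonneg ‖y‖))
    simp only [mul_zero, zero_re]; linarith
  have un : ∀ j t, ∀ s ∈ Set.Icc (0 : ℝ) 1, IsUnit (C s (σ j t)) := fun j t s h =>
    unit_of (hu j) hδ (co j t s h)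
  let Φ : ℕ → ℝ → ℝ → H →L[ℂ] H := fun j s t => Ring.inverse (C s (σ j t))
  have i0 : (0 : ℝ) ∈ Set.Icc (0 : ℝ) 1 := by simp
  have i1 : (1 : ℝ) ∈ Set.Icc (0 : ℝ) 1 := by simp
  have cσ : ∀ j, Continuous (σ j) := fun j => by simp only [σ]; fun_prop
  have cC : ∀ j, Continuous fun p : ℝ × ℝ => C p.2 (σ j p.1) := fun j => by
    simp only [C, σ]; fun_prop
  have ct : ∀ j, ∀ s ∈ Set.Icc (0 : ℝ) 1, Continuous (Φ j s) := fun j s h =>
    continuous_iff_continuousAt.2 fun t =>
      cont_inv ((cC j).comp (Continuous.prodMk_left s)) (un j t s h)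
  have cs : ∀ j t, ContinuousOn (fun s => Φ j s t) (Set.uIcc 0 1) := fun j t s h =>
    (cont_inv ((cC j).comp (Continuous.prodMk_right t)) (un j t s (by simpa using h))).continuousWithinAt
  have cN : ∀ j t, ∀ s ∈ Set.Icc (0 : ℝ) 1, Commute N (Φ j s t) := fun j t s h =>
    comm_inv (un j t s h) (((Commute.one_right N).smul_right _).sub_right ((Commute.refl N).smul_right _))
  have σ0 : ∀ j, σ j 0 = v j := fun j => by simp [σ]
  have σ1 : ∀ j, σ j 1 = v (j + 1) := fun j => by simp [σ, d]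
  have dσ : ∀ j t, HasDerivAt (σ j) (d j) t := fun j t => by
    simpa [σ] using ((hasDerivAt_id t).ofReal_comp.mul_const (d j)).const_add (v j)
  have hom : ∑ j ∈ range m, ∫ t in (0 : ℝ)..1, d j • Φ j 1 t =
      ∑ j ∈ range m, ∫ t in (0 : ℝ)..1, d j • Φ j 0 t := by
    rw [← sub_eq_zero, ← sum_sub_distrib,
      ← tel' hv (fun z => -∫ s in (0 : ℝ)..1, N * Ring.inverse (C s z))]
    refine sum_congr rfl fun j _ => ?_
    refine (integral_sub (((ct j 1 i1).const_smul (d j)).intervalIntegrable _ _)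
      (((ct j 0 i0).const_smul (d j)).intervalIntegrable _ _)).symm.trans ?_
    calc _ = ∫ t in (0 : ℝ)..1, ∫ s in (0 : ℝ)..1, d j • (Φ j s t * N * Φ j s t) := by
          refine integral_congr fun t _ => (integral_eq_sub_of_hasDerivAt
            (f := fun s => d j • Φ j s t) (fun s h => ?_) ?_).symm
          · have := deriv_inv (C := fun s => C s (σ j t)) (C' := -N) (t := s)
              ((((hasDerivAt_id s).ofReal_comp.smul_const N).const_sub ((σ j t - a0) • 1)).congr_deriv
                (by simp)) (un j t s (by simpa using h))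
            exact (this.const_smul (d j)).congr_deriv (by simp [Φ])
          · exact ((((cs j t).mul continuousOn_const).mul (cs j t)).const_smul (d j)).intervalIntegrable
      _ = ∫ s in (0 : ℝ)..1, ∫ t in (0 : ℝ)..1, d j • (Φ j s t * N * Φ j s t) := by
          refine intervalIntegral_intervalIntegral_swap ((ContinuousOn.integrableOn_compact
            (isCompact_uIcc.prod isCompact_uIcc) ?_).mono_set
            (Set.prod_mono Set.uIoc_subset_uIcc Set.uIoc_subset_uIcc))
          have : ContinuousOn (fun p : ℝ × ℝ => Φ j p.2 p.1) (Set.uIcc 0 1 ×ˢ Set.uIcc 0 1) :=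
            fun p h => (cont_inv (cC j) (un j p.1 p.2 (by simpa using h.2))).continuousWithinAt
          exact ((this.mul continuousOn_const).mul this).const_smul (d j)
      _ = ∫ s in (0 : ℝ)..1, (N * Φ j s 0 - N * Φ j s 1) := by
          refine integral_congr fun s h => ?_
          have h' : s ∈ Set.Icc (0 : ℝ) 1 := by simpa using h
          refine (integral_eq_sub_of_hasDerivAt (f := fun t => -(N * Φ j s t)) (fun t _ => ?_)
            ((((ct j s h').mul continuous_const).mul (ct j s h')).const_smul (d j)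
              |>.intervalIntegrable _ _)).trans (by abel)
          have := deriv_inv (C := fun t => C s (σ j t)) (C' := d j • 1) (t := t)
            ((((dσ j t).sub_const a0).smul_const 1).sub_const _) (un j t s h')
          refine (this.const_mul N).neg.congr_deriv ?_
          change _ = d j • (Φ j s t * N * Φ j s t)
          rw [← (cN j t s h').eq]; simp [Φ, mul_assoc]
      _ = _ := by
          refine (integral_sub ((continuousOn_const.mul (cs j 0)).intervalIntegrable)
            ((continuousOn_const.mul (cs j 1)).intervalIntegrable)).trans ?_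
          change (∫ s in (0 : ℝ)..1, N * Φ j s 0) - (∫ s in (0 : ℝ)..1, N * Φ j s 1) = _
          simp only [Φ, σ0, σ1]; abel
  have pos : ∀ j t, 0 < (conj (u j) * (σ j t - a0)).re := fun j t => by
    rw [line]; exact hδ.trans_le (hs j x0 hx0)
  have ne : ∀ j t, σ j t - a0 ≠ 0 := fun j t h => by simpa [h] using pos j t
  have ci : ∀ j, Continuous fun t => d j / (σ j t - a0) := fun j =>
    continuous_const.div ((cσ j).sub continuous_const) (ne j)
  set w := ∑ j ∈ range m, ∫ t in (0 : ℝ)..1, d j / (σ j t - a0) with hw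
  have w1 : w.re = 0 := by
    rw [hw, re_sum]
    refine (sum_congr rfl fun j _ => ?_).trans (tel' hv (fun z => Real.log ‖z - a0‖))
    rw [integral_eq_sub_of_hasDerivAt (f := fun t => log (conj (u j) * (σ j t - a0))) (fun t _ => ?_)
      ((ci j).intervalIntegrable _ _)]
    · simp only [σ0, σ1]; simp [log_re, hu]
    · have hu0 : conj (u j) ≠ 0 := by rw [_root_.map_ne_zero, ← norm_ne_zero_iff, hu]; simp
      rw [← mul_div_mul_left _ _ hu0]
      exact (((dσ j t).sub_const a0).const_mul (conj (u j))).clog_real (Or.inl (pos j t))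
  have w2 : 0 < w.im := by
    rw [hw, im_sum]
    refine sum_pos (fun j _ => ?_) (by simpa using hm.ne')
    rw [← imCLM_apply, ← imCLM.intervalIntegral_comp_comm ((ci j).intervalIntegrable _ _)]
    refine intervalIntegral_pos_of_pos ((imCLM.continuous.comp (ci j)).intervalIntegrable _ _)
      (fun t => ?_) one_pos
    have := pos j t
    have n0 := normSq_pos.2 (ne j t)
    rw [imCLM_apply, div_im, ← sub_div]
    refine div_pos ?_ n0
    simp only [d, hd]; simp at this ⊢
    nlinarith [mul_pos (hl j) this]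
  have w0 : w ≠ 0 := fun h => by simp [h] at w2
  let R : ℕ × ℝ → H →L[ℂ] H := fun p => (d p.1 / w) • Φ p.1 1 p.2
  let 𝒥 : (ℂ → ℂ) → H →L[ℂ] H := fun g => ∑ j ∈ range m, ∫ t in (0 : ℝ)..1, g (σ j t) • R (j, t)
  have cR : ∀ j, Continuous fun t => R (j, t) := fun j => (ct j 1 i1).const_smul (d j / w)
  have ig : ∀ {g : ℂ → ℂ}, Continuous g → ∀ j, Continuous fun t => g (σ j t) • R (j, t) :=
    fun hg j => (hg.comp (cσ j)).smul (cR j)
  have J1 : 𝒥 (fun _ => 1) = 1 := by
    have : ∀ j t, Φ j 0 t = (σ j t - a0)⁻¹ • 1 := fun j t => by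
      have := Ring.inverse_mul_cancel _ (un j t 0 i0)
      simp only [C, ofReal_zero, zero_smul, sub_zero, mul_smul_comm, mul_one] at this
      rw [← this, smul_smul, inv_mul_cancel₀ (ne j t), one_smul]; simp [Φ, C]
    simp only [𝒥, R, one_smul, div_eq_inv_mul, mul_smul, intervalIntegral.integral_smul, ← smul_sum]
    simp only [← intervalIntegral.integral_smul]
    rw [hom]
    simp only [this, smul_smul, ← div_eq_mul_inv, intervalIntegral.integral_smul_const, ← sum_smul]
    rw [← hw, inv_mul_cancel₀ w0, one_smul]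
  have mulJ : ∀ (B : H →L[ℂ] H) {g : ℂ → ℂ}, Continuous g →
      B * 𝒥 g = ∑ j ∈ range m, ∫ t in (0 : ℝ)..1, B * (g (σ j t) • R (j, t)) := by
    intro B g hg
    rw [mul_sum]
    exact sum_congr rfl fun j _ => ((ContinuousLinearMap.mul ℂ _ B).intervalIntegral_comp_comm
      ((ig hg j).intervalIntegrable _ _)).symm
  have JP : ∀ p : ℂ[X], 𝒥 (fun z => p.eval z) = aeval A p := by
    intro p
    induction p using Polynomial.induction_on with
    | C a => simp only [𝒥, eval_C, intervalIntegral.integral_smul, ← smul_sum, aeval_C,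
               Algebra.algebraMap_eq_smul_one, ← J1, one_smul]
    | add p q hp hq =>
      rw [map_add, ← hp, ← hq, ← sum_add_distrib]
      refine sum_congr rfl fun j _ => ?_
      rw [← integral_add ((ig p.continuous j).intervalIntegrable _ _)
        ((ig q.continuous j).intervalIntegrable _ _)]
      simp only [eval_add, add_smul]
    | monomial n a ih =>
      rw [pow_succ', mul_left_comm, map_mul, aeval_X, ← ih, mulJ _ (Polynomial.continuous _),
        ← sub_eq_zero, ← sum_sub_distrib,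
        ← tel' hv (fun z => (a / w * (z ^ (n + 1) / (n + 1))) • (1 : H →L[ℂ] H))]
      refine sum_congr rfl fun j _ => ?_
      have c2 := continuous_const (y := A).mul (ig (Polynomial.C a * X ^ n).continuous j)
      have c1 := ig (X * (Polynomial.C a * X ^ n)).continuous j
      refine (integral_sub (c1.intervalIntegrable _ _) (c2.intervalIntegrable _ _)).symm.trans ?_
      rw [← σ1 j, ← σ0 j]
      refine integral_eq_sub_of_hasDerivAt (f := fun t => (a / w * (σ j t ^ (n + 1) / (n + 1))) •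
        (1 : H →L[ℂ] H)) (fun t _ => ?_) ((c1.sub c2).intervalIntegrable _ _)
      refine (((((dσ j t).pow (n + 1)).div_const (n + 1)).const_mul (a / w)).smul_const
        (1 : H →L[ℂ] H)).congr_deriv ?_
      have h1 := Ring.mul_inverse_cancel _ (un j t 1 i1)
      have : (n : ℂ) + 1 ≠ 0 := by exact_mod_cast n.succ_ne_zero
      have h2 : σ j t • Φ j 1 t - A * Φ j 1 t = 1 := by
        rw [← h1]; simp [C, hN, Φ, sub_mul, sub_smul]
      rw [← h2]
      simp only [Pi.mul_apply, R, eval_mul, eval_X, eval_C, eval_pow, mul_smul_comm, smul_smul, smul_sub]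
      congr 2 <;> (simp; field_simp)
  have cf : Continuous fun z => P.eval z := P.continuous
  let L : C(ℕ × ℝ, ℝ) →ₗ[ℝ] ℝ :=
    { toFun := fun g => ∑ j ∈ range m, ∫ t in (0 : ℝ)..1, g (j, t)
      map_add' := fun g h => by
        rw [← sum_add_distrib]
        exact sum_congr rfl fun j _ => integral_add (Continuous.intervalIntegrable (by fun_prop) _ _)
          (Continuous.intervalIntegrable (by fun_prop) _ _)
      map_smul' := fun a g => by simp [mul_sum] }
  have nJ : ∀ {g : ℂ → ℂ}, Continuous g → (∀ j, ∀ t ∈ Set.Icc (0 : ℝ) 1, ‖g (σ j t)‖ ≤ 1) →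
      ‖𝒥 g‖ ≤ ∑ j ∈ range m, ∫ t in (0 : ℝ)..1, ‖R (j, t)‖ := fun hg h =>
    (norm_sum_le _ _).trans (sum_le_sum fun j _ => (intervalIntegral.norm_integral_le_integral_norm zero_le_one).trans
      (integral_mono_on zero_le_one ((ig hg j).norm.intervalIntegrable _ _)
        ((cR j).norm.intervalIntegrable _ _) fun t ht => by
          rw [norm_smul]; exact mul_le_of_le_one_left (norm_nonneg _) (h j t ht)))
  have JT : ∀ n, 𝒥 (fun z => P.eval z ^ n) = aeval A P ^ n := fun n => by
    rw [← map_pow, ← JP]; simp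
  have ev : ∀ {g : ℂ → ℂ}, Continuous g → ∀ y z : H, (⟪z, 𝒥 g y⟫_ℂ).re =
      ∑ j ∈ range m, ∫ t in (0 : ℝ)..1, (⟪z, (g (σ j t) • R (j, t)) y⟫_ℂ).re := by
    intro g hg y z
    let φ : (H →L[ℂ] H) →L[ℝ] ℝ := reCLM.comp
      (((innerSL ℂ z).comp (ContinuousLinearMap.apply ℂ H y)).restrictScalars ℝ)
    change φ (∑ j ∈ range m, ∫ t in (0 : ℝ)..1, g (σ j t) • R (j, t)) = ∑ j ∈ range m, ∫ t in (0 : ℝ)..1, φ (g (σ j t) • R (j, t))
    rw [map_sum]
    exact sum_congr rfl fun j _ =>
      (φ.intervalIntegral_comp_comm ((ig hg j).intervalIntegrable _ _)).symm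
  have cb : ∀ n (y z : H) j, Continuous fun t => r (R (j, t)) (P.eval (σ j t) ^ n • y) z := by
    intro n y z j
    have c2 := ((cf.comp (cσ j)).pow n).smul (continuous_const (y := y))
    exact (continuous_re.comp (continuous_const.inner ((cR j).clm_apply c2))).add
      (continuous_re.comp (c2.inner ((cR j).clm_apply continuous_const)))
  have ccj : ∀ n, Continuous fun z => conj (P.eval z) ^ n := fun n => by fun_prop
  refine key {p : ℕ × ℝ | p.2 ∈ Set.Icc (0 : ℝ) 1} L
    (fun g h => sum_nonneg (s := range m) (f := fun j => ∫ t in (0 : ℝ)..1, g (j, t)) fun j _ => integral_nonneg zero_le_one fun t ht => h (j, t) ht)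
    (fun p => P.eval (σ p.1 p.2)) R (fun p hp => hP p.1 p.2 hp) (fun p _ y => ?_) _
    (fun n => 𝒥 fun z => conj (P.eval z) ^ n)
    (fun n y z => ⟨fun p => r (R p) (P.eval (σ p.1 p.2) ^ n • y) z,
      continuous_prod_of_discrete_left.2 fun j => cb n y z j⟩) (fun _ _ _ _ => rfl)
    (fun n y z => ?_) (by simpa using J1) (fun n => ?_)
    ((∑ j ∈ range m, ∫ t in (0 : ℝ)..1, ‖R (j, t)‖) * ∑ j ∈ range m, ∫ t in (0 : ℝ)..1, ‖R (j, t)‖)
    (fun n => ?_)
  · obtain ⟨j, t⟩ := p
    have h1 : C 1 (σ j t) (Φ j 1 t y) = y :=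
      congrArg (· y) (Ring.mul_inverse_cancel _ (un j t 1 i1))
    have h2 := (mul_nonneg hδ.le (sq_nonneg _)).trans (co j t 1 i1 (Φ j 1 t y))
    have e : d j / w = (l j / w.im : ℝ) * u j := by
      rw [div_eq_iff w0]
      conv_rhs => rw [← re_add_im w]
      have : (w.im : ℂ) ≠ 0 := by simpa using w2.ne'
      simp only [d, hd, w1]; push_cast; simp; field_simp
    have : 0 ≤ (⟪y, R (j, t) y⟫_ℂ).re := by
      simp only [R, ContinuousLinearMap.smul_apply, inner_smul_right, e, mul_assoc, re_ofReal_mul]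
      refine mul_nonneg (div_pos (hl j) w2).le ?_
      rw [h1, ← conj_re, map_mul, conj_conj, inner_conj_symm] at h2
      exact h2
    exact add_nonneg this this
  · rw [← JT, ev (g := fun z => P.eval z ^ n) (cf.pow n), ev (ccj n), ← sum_add_distrib]
    change ∑ j ∈ range m, ∫ t in (0 : ℝ)..1, r (R (j, t)) (P.eval (σ j t) ^ n • y) z = _
    refine sum_congr rfl fun j _ => ?_
    refine Eq.trans ?_ (integral_add (Continuous.intervalIntegrable (continuous_re.comp
      (continuous_const.inner ((ig (cf.pow n) j).clm_apply continuous_const))) _ _)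
      (Continuous.intervalIntegrable (continuous_re.comp
      (continuous_const.inner ((ig (ccj n) j).clm_apply continuous_const))) _ _))
    simp [r, mul_comm]
  · rw [mulJ _ (ccj n), sum_mul]
    refine sum_congr rfl fun j _ => ?_
    refine Eq.trans ?_ (((ContinuousLinearMap.mul ℂ _).flip (aeval A P)).intervalIntegral_comp_comm
      ((ig (ccj n) j).intervalIntegrable _ _))
    refine integral_congr fun t _ => ?_
    have : Commute A (Φ j 1 t) := by
      have := (cN j t 1 i1).add_left ((Commute.one_left _).smul_left a0)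
      simpa [hN] using this
    have h3 : Commute (aeval A P) (Φ j 1 t) := by
      rw [aeval_eq_sum_range]
      exact Commute.sum_left _ _ _ fun i _ => (this.pow_left i).smul_left _
    exact ((h3.smul_right _).smul_right _).eq
  · have a1 := nJ (ccj n) fun j t ht => by
      rw [norm_pow, RCLike.norm_conj]; exact pow_le_one₀ (norm_nonneg _) (hP j t ht)
    have a2 := nJ (g := fun z => P.eval z ^ n) (cf.pow n) fun j t ht => by
      rw [norm_pow]; exact pow_le_one₀ (norm_nonneg _) (hP j t ht)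
    rw [JT] at a2
    exact (norm_mul_le _ _).trans (mul_le_mul a1 a2 (norm_nonneg _) ((norm_nonneg _).trans a1))

end Vale.Agent.P123
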