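import Mathlib

namespace Vale.Agent.P123

open Complex
open scoped InnerProductSpace

variable {H : Type*} [NormedAddCommGroup H] [InnerProductSpace ℂ H]

noncomputable def r (R : H →L[ℂ] H) (y z : H) : ℝ := (⟪z, R y⟫_ℂ).re + (⟪y, R z⟫_ℂ).re

theorem r_sub (R : H →L[ℂ] H) (u v z : H) : r R (u - v) z = r R u z - r R v z := by
  simp [r, inner_sub_left, inner_sub_right]; ring
theorem r_comm (R : H →L[ℂ] H) (u v : H) : r R u v = r R v u := add_comm _ _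
theorem r_sq (R : H →L[ℂ] H) (u v : H) : r R (u - v) (u - v) = r R u u - 2 * r R v u + r R v v := by
  simp [r, inner_sub_left, inner_sub_right]; ring
theorem r_real (R : H →L[ℂ] H) (a : ℝ) (u v : H) : r R ((a : ℂ) • u) v = a * r R u v := by
  simp [r, inner_smul_left, inner_smul_right]; ring
theorem r_cc (R : H →L[ℂ] H) (c : ℂ) (u : H) : r R (c • u) (c • u) = ‖c‖ ^ 2 * r R u u := by
  simp [r, inner_smul_left, inner_smul_right, Complex.sq_norm, normSq_apply]; ring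

theorem pt {R : H →L[ℂ] H} (hR : ∀ y, 0 ≤ r R y y) {f : ℂ} (hf : ‖f‖ ≤ 1) (κ l : ℝ) (n : ℕ)
    (x y w : H) : 0 ≤ κ ^ 2 * r R x x - 2 * κ * r R (f • x) y + r R y y -
      2 * l * (κ * r R (f ^ (n + 1) • x) w - r R (f ^ n • y) w) + l ^ 2 * r R w w := by
  have h1 := hR ((l : ℂ) • w - f ^ n • ((κ : ℂ) • f • x - y))
  have h2 := hR ((κ : ℂ) • f • x - y)
  have h3 := hR x
  have g1 : ‖f ^ n‖ ^ 2 ≤ 1 := by
    rw [norm_pow]; exact pow_le_one₀ (by positivity) (pow_le_one₀ (norm_nonneg _) hf)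
  have g2 : ‖f‖ ^ 2 ≤ 1 := pow_le_one₀ (norm_nonneg _) hf
  have e1 : r R (f ^ n • ((κ : ℂ) • f • x - y)) ((l : ℂ) • w) =
      l * (κ * r R (f ^ (n + 1) • x) w - r R (f ^ n • y) w) := by
    rw [r_comm, r_real, r_comm, smul_sub, r_sub, smul_comm, r_real, smul_smul, ← pow_succ]
  rw [r_sq, r_cc, r_cc, e1, norm_real, Real.norm_eq_abs, sq_abs] at h1
  have e : r R ((κ : ℂ) • f • x - y) ((κ : ℂ) • f • x - y) =
      κ ^ 2 * (‖f‖ ^ 2 * r R x x) - 2 * κ * r R (f • x) y + r R y y := by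
    rw [r_sq, r_cc, r_cc, r_comm R y, r_real, norm_real, Real.norm_eq_abs, sq_abs]; ring
  have a1 := mul_le_mul_of_nonneg_right g1 h2
  have a2 := mul_le_mul_of_nonneg_left (mul_le_mul_of_nonneg_right g2 h3) (sq_nonneg κ)
  linarith

theorem grow {μ : ℕ → ℝ} {κ c M : ℝ} (hκ : 1 < κ) (h : ∀ n, κ * μ n - c ≤ μ (n + 1))
    (hM : ∀ n, μ n ≤ M) : (κ - 1) * μ 1 ≤ c := by
  by_contra hc
  push Not at hc
  have : ∀ n : ℕ, μ 1 + n * ((κ - 1) * μ 1 - c) ≤ μ (n + 1) := by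
    intro n
    induction n with
    | zero => simp
    | succ n ih =>
      have := h (n + 1)
      have : 0 ≤ (κ - 1) * (n * ((κ - 1) * μ 1 - c)) :=
        mul_nonneg (by linarith) (mul_nonneg n.cast_nonneg (by linarith))
      push_cast
      nlinarith
  obtain ⟨n, hn⟩ := exists_nat_gt ((M - μ 1) / ((κ - 1) * μ 1 - c))
  rw [div_lt_iff₀ (by linarith)] at hn
  linarith [this n, hM (n + 1)]

theorem key [CompleteSpace H] {X : Type} [TopologicalSpace X] (S : Set X) (L : C(X, ℝ) →ₗ[ℝ] ℝ)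
    (hL : ∀ g : C(X, ℝ), (∀ p ∈ S, 0 ≤ g p) → 0 ≤ L g) (f : X → ℂ) (R : X → H →L[ℂ] H)
    (hf : ∀ p ∈ S, ‖f p‖ ≤ 1) (hR : ∀ p ∈ S, ∀ y, 0 ≤ r (R p) y y) (T : H →L[ℂ] H)
    (E : ℕ → H →L[ℂ] H) (b : ℕ → H → H → C(X, ℝ)) (hb : ∀ n y z p, b n y z p = r (R p) (f p ^ n • y) z)
    (hLb : ∀ n y z, L (b n y z) = (⟪z, (T ^ n) y⟫_ℂ).re + (⟪y, E n z⟫_ℂ).re) (hE0 : E 0 = 1)
    (hc : ∀ n, T * E n = E n * T) (M : ℝ) (hM : ∀ n, ‖E n * T ^ n‖ ≤ M) : ‖T‖ ≤ 2 := by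
  by_contra hκ
  push Not at hκ
  set κ := ‖T‖ with hκd
  have M0 : 0 ≤ M := (norm_nonneg _).trans (hM 0)
  have hpos : 0 < κ * (κ - 1) ^ 2 * (κ - 2) * κ := by
    have : 0 < κ - 1 := by linarith
    have : 0 < κ - 2 := by linarith
    positivity
  obtain ⟨η, η0, η1, hη⟩ : ∃ η : ℝ, 0 < η ∧ η ≤ 1 ∧
      η * (κ * (κ - 1) ^ 2 + (κ - 1) * κ * M) < κ * (κ - 1) ^ 2 * (κ - 2) * κ / κ := by
    have hq : 0 < κ * (κ - 1) ^ 2 + (κ - 1) * κ * M := by
      have : 0 < κ - 1 := by linarith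
      positivity
    refine ⟨min 1 (κ * (κ - 1) ^ 2 * (κ - 2) * κ / κ / 2 / (κ * (κ - 1) ^ 2 + (κ - 1) * κ * M)),
      by positivity, min_le_left _ _, ?_⟩
    refine lt_of_le_of_lt (mul_le_mul_of_nonneg_right (min_le_right _ _) hq.le) ?_
    rw [div_mul_cancel₀ _ hq.ne']
    exact half_lt_self (by positivity)
  rw [mul_div_cancel_right₀ _ (by linarith)] at hη
  obtain ⟨x, x1, hx⟩ := T.exists_lt_apply_of_lt_opNorm (r := κ - η ^ 2 / (2 * κ))
    (by rw [← hκd]; exact sub_lt_self _ (by positivity))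
  have t1 : ‖T x‖ ≤ κ := by simpa using T.le_opNorm_of_le x1.le
  have t2 : κ ^ 2 - η ^ 2 ≤ ‖T x‖ ^ 2 := by
    have : η ^ 2 / (2 * κ) * (2 * κ) = η ^ 2 := div_mul_cancel₀ _ (by linarith)
    nlinarith [norm_nonneg (T x)]
  have x2 : ‖x‖ ^ 2 ≤ 1 := pow_le_one₀ (norm_nonneg _) x1.le
  have ii : ∀ y : H, (⟪y, y⟫_ℂ).re = ‖y‖ ^ 2 := fun y => inner_self_eq_norm_sq (𝕜 := ℂ) y
  set d := ((κ ^ 2 : ℝ) : ℂ) • x - ContinuousLinearMap.adjoint T (T x) with hd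
  have d1 : ‖d‖ ≤ κ * η := by
    refine abs_le_of_sq_le_sq' ?_ (by positivity) |>.2
    have a : ‖ContinuousLinearMap.adjoint T (T x)‖ ≤ κ * ‖T x‖ := by
      simpa using (ContinuousLinearMap.adjoint T).le_opNorm (T x)
    have a' := pow_le_pow_left₀ (norm_nonneg _) a 2
    rw [hd, @norm_sub_sq ℂ, inner_smul_left, ContinuousLinearMap.adjoint_inner_right, norm_smul]
    simp only [conj_ofReal, RCLike.re_to_complex, re_ofReal_mul, ii, norm_real, Real.norm_eq_abs,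
      mul_pow, sq_abs] at a' ⊢
    nlinarith [mul_le_mul_of_nonneg_left x2 (sq_nonneg (κ ^ 2)),
      mul_le_mul_of_nonneg_left t2 (sq_nonneg κ)]
  have bd : ∀ n (y : H), |(⟪y, E n ((T ^ n) x)⟫_ℂ).re| ≤ ‖y‖ * M := fun n y => by
    refine (abs_re_le_norm _).trans ((norm_inner_le_norm _ _).trans ?_)
    gcongr
    exact ((E n * T ^ n).le_opNorm_of_le x1.le).trans (by simpa using hM n)
  set ρ := L (b 1 x (T x)) with hρ
  have main : ∀ (l : ℝ) n, 0 ≤ κ ^ 2 * (2 * ‖x‖ ^ 2) - 2 * κ * ρ + 2 * ‖T x‖ ^ 2 -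
      2 * l * (κ * L (b (n + 1) x ((T ^ (n + 1)) x)) - L (b n (T x) ((T ^ (n + 1)) x))) +
      l ^ 2 * (2 * ‖(T ^ (n + 1)) x‖ ^ 2) := by
    intro l n
    have e0 : ∀ y, L (b 0 y y) = 2 * ‖y‖ ^ 2 := fun y => by
      rw [hLb, hE0, pow_zero, ContinuousLinearMap.one_apply, ii]; ring
    have := hL (κ ^ 2 • b 0 x x - (2 * κ) • b 1 x (T x) + b 0 (T x) (T x) - (2 * l) • (κ •
      b (n + 1) x ((T ^ (n + 1)) x) - b n (T x) ((T ^ (n + 1)) x)) + l ^ 2 • b 0 ((T ^ (n + 1)) x)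
      ((T ^ (n + 1)) x)) fun p hp => by
        simpa [hb] using pt (hR p hp) (hf p hp) κ l n x (T x) ((T ^ (n + 1)) x)
    simpa only [map_add, map_sub, map_smul, smul_eq_mul, e0] using this
  have ρ1 : ρ ≤ 2 * κ := by
    have := main 0 0
    have t3 := pow_le_pow_left₀ (norm_nonneg _) t1 2
    nlinarith
  have g := grow (μ := fun n => -(⟪x, E n ((T ^ n) x)⟫_ℂ).re) (κ := κ) (M := ‖x‖ * M)
    (c := ((2 * κ ^ 2 - κ * ρ) / (κ - 1) + κ * η * M) / κ) (by linarith) (fun n => ?_)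
    (fun n => (neg_le_abs _).trans (bd n x))
  · have e1 := hLb 1 x (T x)
    rw [← hρ, pow_one, ii] at e1
    simp only [pow_one] at g
    rw [le_div_iff₀ (by linarith), ← sub_le_iff_le_add, le_div_iff₀ (by linarith)] at g
    have η2 : η ^ 2 ≤ η := by nlinarith
    have : 0 ≤ κ * ((κ - 1) ^ 2 - 1) := mul_nonneg (by linarith) (by nlinarith)
    have := mul_le_mul_of_nonneg_left ρ1 this
    have := mul_le_mul_of_nonneg_left (t2.trans' (sub_le_sub_left η2 _))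
      (mul_nonneg (by linarith : 0 ≤ κ) (sq_nonneg (κ - 1)))
    rw [show (⟪x, E 1 (T x)⟫_ℂ).re = ρ - ‖T x‖ ^ 2 by linarith] at g
    nlinarith
  · have h1 := main (κ - 1) n
    have e2 : (T ^ n) (T x) = (T ^ (n + 1)) x := by rw [pow_succ]; rfl
    have e3 : (⟪T x, E n ((T ^ (n + 1)) x)⟫_ℂ).re =
        κ ^ 2 * (⟪x, E n ((T ^ n) x)⟫_ℂ).re - (⟪d, E n ((T ^ n) x)⟫_ℂ).re := by
      rw [hd, inner_sub_left, inner_smul_left, ContinuousLinearMap.adjoint_inner_left, pow_succ',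
        show T (E n ((T ^ n) x)) = E n ((T * T ^ n) x) from congrArg (· ((T ^ n) x)) (hc n)]
      simp only [conj_ofReal, sub_re, re_ofReal_mul]; ring
    rw [hLb, hLb, e2, ii, e3] at h1
    have b1 := (abs_le.1 ((bd n d).trans (mul_le_mul_of_nonneg_right d1 M0))).1
    have t3 := pow_le_pow_left₀ (norm_nonneg _) t1 2
    have k1 : 0 < κ - 1 := by linarith
    rw [sub_le_iff_le_add, ← sub_le_iff_le_add', le_div_iff₀ (by linarith), ← sub_le_iff_le_add,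
      le_div_iff₀ k1]
    nlinarith [mul_le_mul_of_nonneg_left b1 k1.le, mul_le_mul_of_nonneg_left x2 (sq_nonneg κ)]

end Vale.Agent.P123
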