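import Vale.Agent.P123.Contour

namespace Vale.Agent.P123

open Complex Finset Polynomial
open scoped InnerProductSpace ComplexConjugate

variable {H : Type*} [NormedAddCommGroup H] [InnerProductSpace ℂ H]

theorem scal (A : H →L[ℂ] H) (c : ℂ) (z : H) : ⟪c • z, A (c • z)⟫_ℂ = (‖c‖ ^ 2 : ℝ) * ⟪z, A z⟫_ℂ := by
  rw [map_smul, inner_smul_left, inner_smul_right, ← mul_assoc, conj_mul']; simp

theorem toeplitz (A : H →L[ℂ] H) : Convex ℝ {z | ∃ x : H, ‖x‖ = 1 ∧ ⟪x, A x⟫_ℂ = z} := by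
  rw [convex_iff_segment_subset]
  rintro a ⟨x, hx, ha⟩ b ⟨y, hy, hb⟩
  by_cases hab : a = b
  · rw [hab, segment_same]; rintro _ rfl; exact ⟨y, hy, hb⟩
  rw [segment_eq_image']
  rintro _ ⟨s, hs, rfl⟩
  have ba : b - a ≠ 0 := sub_ne_zero.2 (Ne.symm hab)
  let B : H →L[ℂ] H := (b - a)⁻¹ • (A - a • 1)
  have hB : ∀ z, ⟪z, A z⟫_ℂ = a * (‖z‖ ^ 2 : ℝ) + (b - a) * ⟪z, B z⟫_ℂ := fun z => by
    simp [B, inner_smul_right, inner_sub_right, inner_self_eq_norm_sq_to_K, ba]
  have bx : ⟪x, B x⟫_ℂ = 0 := by simpa [ha, hx, ba] using hB x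
  have b1 : ⟪y, B y⟫_ℂ = 1 := by
    have := hB y
    rw [hb, hy] at this
    exact mul_left_cancel₀ ba (by push_cast at this; linear_combination -this)
  obtain ⟨l, l1, l2⟩ : ∃ l : ℂ, ‖l‖ = 1 ∧ (l * (⟪y, B x⟫_ℂ - conj ⟪x, B y⟫_ℂ)).im = 0 := by
    generalize ⟪y, B x⟫_ℂ - conj ⟪x, B y⟫_ℂ = w
    obtain ⟨l, h1, h2⟩ := exists_norm_mul_eq_self w
    exact ⟨conj l, by simpa using h1, by rw [← h2]; simp; ring⟩
  let z : ℝ → H := fun t => ((1 - t : ℝ) : ℂ) • l • x + (t : ℂ) • y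
  have im : ∀ t, (⟪z t, B (z t)⟫_ℂ).im = 0 := fun t => by
    simp only [z, map_add, map_smul, inner_add_left, inner_add_right, inner_smul_left,
      inner_smul_right, bx, b1]
    simp [-inner_conj_symm] at l2 ⊢
    linear_combination t * (1 - t) * l2
  have nz : ∀ t, z t ≠ 0 := fun t h => by
    have e : (t : ℂ) • y = (-(((1 - t : ℝ) : ℂ) * l)) • x := by
      rw [neg_smul, mul_smul]; exact eq_neg_of_add_eq_zero_right h
    have := scal B t y
    rw [e, scal, bx, b1] at this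
    have t0 : t = 0 := by simpa using this.symm
    have : ‖z t‖ = 1 := by simp [z, t0, norm_smul, l1, hx]
    simp [h] at this
  have cz : Continuous z := by simp only [z]; fun_prop
  have cg : Continuous fun t => (⟪z t, B (z t)⟫_ℂ).re / ‖z t‖ ^ 2 :=
    (continuous_re.comp (cz.inner (B.continuous.comp cz))).div (cz.norm.pow 2)
      fun t => pow_ne_zero _ (norm_ne_zero_iff.2 (nz t))
  obtain ⟨t, -, ht⟩ := intermediate_value_Icc zero_le_one cg.continuousOn (a := 0) (b := 1)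
    (show s ∈ _ by simpa [z, inner_smul_left, inner_smul_right, bx, b1, hy] using hs)
  have n0 : 0 < ‖z t‖ := norm_pos_iff.2 (nz t)
  have n1 : ‖((‖z t‖⁻¹ : ℝ) : ℂ) • z t‖ = 1 := by simp [norm_smul, n0.ne']
  refine ⟨_, n1, ?_⟩
  rw [hB, n1, scal, ← re_add_im ⟪z t, B (z t)⟫_ℂ, im, ← ht]
  simp; ring

theorem polygon {K : Set ℂ} (hK : IsCompact K) (hc : Convex ℝ K) (hn : K.Nonempty) {ε : ℝ}
    (hε : 0 < ε) : ∃ (m : ℕ) (v u : ℕ → ℂ) (l : ℕ → ℝ) (δ : ℝ), 0 < m ∧ 0 < δ ∧ v m = v 0 ∧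
      (∀ j, ‖u j‖ = 1) ∧ (∀ j, 0 < l j) ∧ (∀ j, v (j + 1) - v j = l j * I * u j) ∧
      (∀ j, ∀ a ∈ K, δ ≤ (conj (u j) * (v j - a)).re) ∧ ∀ j, v j ∈ Metric.thickening ε K := by
  obtain ⟨R, R0, hR⟩ := hK.isBounded.exists_pos_norm_le
  choose a aK ha using fun u : ℂ => hK.exists_isMaxOn hn
    (f := fun z => (conj u * z).re) (by fun_prop)
  obtain ⟨m, hm⟩ := exists_nat_gt (max 7 (16 * Real.pi * R / ε))
  rw [max_lt_iff, div_lt_iff₀ hε] at hm
  have m0 : (0 : ℝ) < m := by linarith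
  set α := 2 * Real.pi / m with hα
  have pi3 := Real.pi_gt_three; have pi4 := Real.pi_lt_d2
  have α0 : 0 < α := by positivity
  have α1 : α ≤ 1 := by rw [hα, div_le_one m0]; linarith
  have α2 : 8 * R * α < ε := by rw [hα, ← mul_div_assoc, div_lt_iff₀ m0]; linarith
  have s0 : 0 < Real.sin α := Real.sin_pos_of_pos_of_lt_pi α0 (by linarith)
  have s1 : Real.sin α ≤ α := Real.sin_le α0.le
  have c0 : 1 / 2 ≤ Real.cos α := by nlinarith [Real.one_sub_sq_div_two_le_cos (x := α)]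
  have cs := Real.cos_sq_add_sin_sq α
  let u : ℕ → ℂ := fun j => exp (j * (α * I))
  have us : ∀ j, u (j + 1) = u j * (Real.cos α + Real.sin α * I) := fun j => by
    simp only [u]; rw [ofReal_cos, ofReal_sin, ← exp_mul_I, ← exp_add]; congr 1; push_cast; ring
  have un : ∀ j, ‖u j‖ = 1 := fun j => by
    simp only [u]; rw [← mul_assoc]; exact_mod_cast norm_exp_ofReal_mul_I (j * α)
  have um : u m = u 0 := by
    have : (m : ℂ) ≠ 0 := by exact_mod_cast m0.ne'
    simp only [u, hα]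
    rw [show (m : ℂ) * (((2 * Real.pi / m : ℝ) : ℂ) * I) = 2 * Real.pi * I by push_cast; field_simp]
    simp
  generalize Real.sin α = s at *
  generalize Real.cos α = c at *
  have c1 : c < 1 := by nlinarith
  have uu : ∀ j, conj (u j) * u j = 1 := fun j => by rw [conj_mul', un]; simp
  let h : ℕ → ℝ := fun j => (conj (u j) * a (u j)).re
  have hh : ∀ j, ∀ z ∈ K, (conj (u j) * z).re ≤ h j := fun j z hz => ha (u j) hz
  have rot : ∀ j z, (conj (u (j + 1)) * z).re = c * (conj (u j) * z).re + s * (conj (u j) * z).im :=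
    fun j z => by rw [us]; simp; ring
  let v : ℕ → ℂ := fun j => u j * ((h j + ε / 4 : ℝ) +
    (((h (j + 1) + ε / 4) - c * (h j + ε / 4)) / s : ℝ) * I)
  have sc : (s : ℂ) ≠ 0 := by exact_mod_cast s0.ne'
  refine ⟨m, v, fun j => u (j + 1),
    fun j => ((h (j + 2) + ε / 4) + (h j + ε / 4) - 2 * c * (h (j + 1) + ε / 4)) / s, ε / 4,
    by exact_mod_cast m0, by positivity, ?_, fun j => un _, fun j => div_pos ?_ s0, fun j => ?_,
    fun j z hz => ?_, fun j => ?_⟩
  · simp only [v, h, us, um]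
  · have a1 := hh (j + 2) _ (aK (u (j + 1)))
    have a2 := hh j _ (aK (u (j + 1)))
    have a3 : (conj (u (j + 2)) * a (u (j + 1))).re + (conj (u j) * a (u (j + 1))).re =
        2 * c * h (j + 1) := by
      simp only [h]
      generalize a (u (j + 1)) = z
      rw [us (j + 1), us j]; simp
      linear_combination (-(u j).re * z.re - (u j).im * z.im) * cs
    nlinarith [mul_pos (sub_pos.2 c1) hε]
  · have cs' : (c : ℂ) ^ 2 + s ^ 2 = 1 := by exact_mod_cast cs
    simp only [v]; rw [us]; push_cast; field_simp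
    linear_combination (u j * I * (4 * h (j + 1) + ε)) * cs' -
      (u j * c * s * (4 * h (j + 1) + ε) * -1) * I_sq - u j * s * (ε + 4 * h j) * I_sq
  · have := hh (j + 1) z hz
    rw [mul_sub, sub_re, rot j (v j)]
    simp only [v, ← mul_assoc, uu]
    simp only [one_mul, add_re, ofReal_re, add_im, ofReal_im, mul_re, mul_im, I_re, I_im, mul_zero,
      mul_one, sub_zero, add_zero, zero_add, mul_div_cancel₀ _ s0.ne', zero_mul] at this ⊢
    linarith
  · have a1 := hh (j + 1) _ (aK (u j))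
    have a2 := hh j _ (aK (u (j + 1)))
    have a3 : h (j + 1) = _ := rot j _
    rw [rot] at a1
    have bd : ∀ z ∈ K, |(conj (u j) * z).im| ≤ R := fun z hz =>
      (abs_im_le_norm _).trans (by simpa [un] using hR z hz)
    have a4 := (abs_le.1 (bd _ (aK (u j)))).1
    have a5 := (abs_le.1 (bd _ (aK (u (j + 1))))).2
    have : (h (j + 1) - c * h j) / s ∈ segment ℝ (conj (u j) * a (u j)).im
        (conj (u j) * a (u (j + 1))).im := by
      refine Icc_subset_segment ⟨?_, ?_⟩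
      · rw [le_div_iff₀ s0]; linarith
      · rw [div_le_iff₀ s0]; nlinarith
    obtain ⟨p, q, p0, q0, pq, e⟩ := this
    refine Metric.mem_thickening_iff.2 ⟨_, hc (aK (u j)) (aK (u (j + 1))) p0 q0 pq, ?_⟩
    rw [dist_eq_norm, ← one_mul ‖_‖, ← un j, ← RCLike.norm_conj, ← norm_mul]
    refine (norm_le_abs_re_add_abs_im _).trans_lt ?_
    have e1 : (conj (u j) * (v j - (p • a (u j) + q • a (u (j + 1))))).re =
        ε / 4 + q * (h j - (conj (u j) * a (u (j + 1))).re) := by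
      simp only [v, mul_sub, mul_add (conj (u j)) (p • _), ← mul_assoc, uu, mul_smul_comm]
      simp only [sub_re, add_re, smul_re, smul_eq_mul, show p = 1 - q by linarith]
      simp [h]; ring
    have e2 : (conj (u j) * (v j - (p • a (u j) + q • a (u (j + 1))))).im = ε / 4 * ((1 - c) / s) := by
      simp only [v, mul_sub, mul_add (conj (u j)) (p • _), ← mul_assoc, uu, mul_smul_comm]
      simp only [sub_im, add_im, smul_im, e]
      simp; ring
    have b1 : (1 - c) / s ≤ 1 := by rw [div_le_one s0]; nlinarith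
    have b2 : 0 ≤ (1 - c) / s := div_nonneg (by linarith) s0.le
    have b3 : h j - (conj (u j) * a (u (j + 1))).re ≤ 4 * R * α := by
      change c * h j + _ ≤ _ at a1
      nlinarith [mul_le_mul_of_nonneg_left s1 R0.le]
    rw [e1, e2, abs_of_nonneg (by have := sub_nonneg.2 a2; positivity), abs_of_nonneg (by positivity)]
    nlinarith [mul_le_mul_of_nonneg_left b1 hε.le, mul_le_of_le_one_left (sub_nonneg.2 a2)
      (show q ≤ 1 by linarith)]

theorem crouzeix [CompleteSpace H] [Nontrivial H] (A : H →L[ℂ] H) (P : ℂ[X]) {M : ℝ}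
    (hM : ∀ x : H, ‖x‖ = 1 → ‖P.eval ⟪x, A x⟫_ℂ‖ ≤ M) : ‖aeval A P‖ ≤ 2 * M := by
  obtain ⟨x0, hx0⟩ := exists_norm_eq H zero_le_one
  have M0 : 0 ≤ M := (norm_nonneg _).trans (hM x0 hx0)
  refine le_of_forall_pos_le_add fun η hη => ?_
  set W := {z | ∃ x : H, ‖x‖ = 1 ∧ ⟪x, A x⟫_ℂ = z} with hW
  have hb : Bornology.IsBounded W := isBounded_iff_forall_norm_le.2 ⟨‖A‖, by
    rintro _ ⟨x, hx, rfl⟩
    exact (norm_inner_le_norm _ _).trans (by simpa [hx] using A.le_opNorm x)⟩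
  obtain ⟨ε, hε, hU⟩ := hb.isCompact_closure.exists_thickening_subset_open
    (isOpen_lt P.continuous.norm (continuous_const (y := M + η / 2))) (fun z hz =>
      lt_of_le_of_lt (closure_minimal (t := {z | ‖P.eval z‖ ≤ M}) (by
        rintro _ ⟨x, hx, rfl⟩; exact hM x hx) (isClosed_le P.continuous.norm continuous_const) hz)
        (lt_add_of_pos_right _ (half_pos hη)))
  have cv := (toeplitz A).closure
  obtain ⟨m, v, u, l, δ, h1, h2, h3, h4, h5, h6, h7, h8⟩ :=
    polygon hb.isCompact_closure cv ⟨_, subset_closure ⟨x0, hx0, rfl⟩⟩ hε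
  have p0 : 0 < M + η / 2 := by positivity
  have := contour A x0 hx0 h1 v u l h2 h3 h4 h5 h6 (fun j x hx => h7 j _ (subset_closure ⟨x, hx, rfl⟩))
    ((((M + η / 2)⁻¹ : ℝ) : ℂ) • P) fun j t ht => by
      have := hU ((cv.thickening ε).add_smul_sub_mem (h8 j) (h8 (j + 1)) ht)
      rw [eval_smul, norm_smul, norm_real, Real.norm_of_nonneg (by positivity), inv_mul_le_iff₀ p0,
        mul_one]
      exact le_of_lt this
  rw [map_smul, norm_smul, norm_real, Real.norm_of_nonneg (by positivity), inv_mul_le_iff₀ p0] at this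
  linarith

end Vale.Agent.P123
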